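import Mathlib

/-!
# P365 T2, static half: order of the constants in `KeySum.static_sum` (292, note 19925 (4))

`θ, Λ` (activity) `→ c', C → a → p0 → C2 → b → τ → p2, φ → δ`.
-/

set_option autoImplicit false
set_option linter.all false

namespace P365L.T2.H904

/-- the regrouping of the right-hand side of `static_sum` -/
theorem order_ring {H c1 Λ c' C2 a b p0 p2 φ τ G n ACT MA MB SE BE CL J L : ℝ} :
    H * (c' ^ 2 * (MA + 4 * c1 / (3 * a) * BE) + 8 * (n * (J / p0 + L / φ)) +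
        8 * Λ * ((2 * p2 + φ / τ) * G / (p0 * b) * ACT +
          1 / p0 * (MB + 16 / (3 * C2 ^ 2) * SE + 4 * c1 / (3 * b) * BE +
            4 / (3 * c' ^ 2) * CL))) =
      H * (c' ^ 2 * MA) + H * (8 * Λ * (1 / p0 * MB)) +
        H * (8 * Λ * (1 / p0 * (16 / (3 * C2 ^ 2) * SE))) +
        H * (8 * Λ * (1 / p0 * (4 / (3 * c' ^ 2) * CL))) +
        (H * (c' ^ 2 * (4 * c1 / (3 * a))) + H * (8 * Λ * (1 / p0 * (4 * c1 / (3 * b))))) * BE +
        (2 * p2 * (H * (8 * Λ * (G / (p0 * b)))) + φ / τ * (H * (8 * Λ * (G / (p0 * b))))) * ACT +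
        8 * H * n * (J / p0 + L / φ) := by
  ring

/-- the last arithmetic step, the regrouped form -/
theorem order_fin {H q K p0 φ n e1 e2 e3 e4 U BE Y1 ACT J L : ℝ} (hH : 0 < H) (hq : 0 < q)
    (hp0 : 0 < p0) (hφ : 0 < φ) (hn : 0 < n) (hU : 0 ≤ U)
    (h1 : e1 ≤ q / 16) (h2 : e2 ≤ q / 16) (h3 : e3 ≤ q / 16) (h4 : e4 ≤ q / 16)
    (h5 : Y1 ≤ K / 8 * ACT) (h6 : q ≤ K * ACT) (hJ : 0 ≤ J) (hL : 0 ≤ L)
    (hBE : BE ≤ min (q / 64 / (U + 1)) (min p0 φ * (q / 64 / (8 * H * n))))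
    (h : K / 2 * ACT ≤ e1 + e2 + e3 + e4 + U * BE + Y1 + 8 * H * n * (J / p0 + L / φ)) :
    min (q / 64 / (U + 1)) (min p0 φ * (q / 64 / (8 * H * n))) ≤ J + L := by
  have hmin : 0 < min p0 φ := lt_min hp0 hφ
  have hB : U * BE ≤ q / 64 := by
    rcases le_or_gt BE 0 with hb | hb
    · have h8 : U * BE ≤ 0 := mul_nonpos_of_nonneg_of_nonpos hU hb
      linarith
    · have h8 : BE ≤ q / 64 / (U + 1) := hBE.trans (min_le_left _ _)
      rw [le_div_iff₀ (by linarith)] at h8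
      nlinarith
  have e7 : q / 64 ≤ 8 * H * n * (J / p0 + L / φ) := by linarith
  have e8 : J / p0 + L / φ ≤ (J + L) / min p0 φ := by
    rw [add_div]
    exact add_le_add (div_le_div_of_nonneg_left hJ hmin (min_le_left _ _))
      (div_le_div_of_nonneg_left hL hmin (min_le_right _ _))
  have hHn : 0 < 8 * H * n := by positivity
  have e9 : q / 64 / (8 * H * n) ≤ (J + L) / min p0 φ := by
    rw [div_le_iff₀ hHn]
    have h9 := mul_le_mul_of_nonneg_left e8 hHn.le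
    linarith
  refine (min_le_right _ _).trans ?_
  rw [le_div_iff₀ hmin] at e9
  linarith

/-- a small positive factor -/
theorem order_small {X Z : ℝ} (hX : 0 < X) (hZ : 0 < Z) :
    ∃ p : ℝ, 0 < p ∧ p ≤ 1 / 2 ∧ 2 * p * X ≤ Z := by
  refine ⟨min (1 / 2) (Z / (2 * X)), lt_min (by norm_num) (by positivity), min_le_left _ _, ?_⟩
  have h1 : min (1 / 2) (Z / (2 * X)) ≤ Z / (2 * X) := min_le_right _ _
  rw [le_div_iff₀ (by positivity)] at h1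
  linarith

/-- a large factor `C2` -/
theorem order_large {X Z C : ℝ} (hX : 0 ≤ X) (hZ : 0 < Z) (hC : 0 < C) :
    ∃ C2 : ℝ, 2 * C ≤ C2 ∧ 0 < C2 ∧ X / C2 ^ 2 ≤ Z := by
  have h0 : 0 ≤ X / Z := by positivity
  refine ⟨2 * C + X / Z + 1, by linarith, by linarith, ?_⟩
  have h1 : X / Z ≤ (2 * C + X / Z + 1) ^ 2 := by nlinarith
  have h2 : 0 < (2 * C + X / Z + 1) ^ 2 := by positivity
  rw [div_le_iff₀ h2]
  rw [div_le_iff₀ hZ] at h1
  linarith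

/-- `x ≤ ε / K` gives `K * x ≤ ε` -/
theorem order_mul {x y K ε : ℝ} (hK : 0 < K) (h : x ≤ y) (h' : y ≤ ε / K) : K * x ≤ ε := by
  have h1 := h.trans h'
  rw [le_div_iff₀ hK] at h1
  linarith

/-- **order of the constants**: `g C` = admissible energy of a block of relative size `C`,
`mis s t` = bound of the mismatched energy, `clo τ` = bound of the close pairs, `c0` = lower bound
of the activity, `D1` = bound of the energy.  If the energy `BE` of the excluded sites is at most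
`δ` then the strong `J` and `L` are together at least `δ`. -/
theorem order {H c1 θ Λ c0 D1 : ℝ} (hH : 0 < H) (hc1 : 0 ≤ c1) (hθ : 0 < θ) (hΛ : 0 < Λ)
    (hc0 : 0 < c0) (hD : 0 ≤ D1) (g : ℝ → ℝ) (hg : ∀ C, 0 < g C) (mis : ℝ → ℝ → ℝ)
    (hm : ∀ s, 0 < s → ∀ ε, 0 < ε → ∃ t, 0 < t ∧ t < s ∧ mis s t ≤ ε) (clo : ℝ → ℝ)
    (hclo : ∀ ε, 0 < ε → ∃ τ, 0 < τ ∧ clo τ ≤ ε) :
    ∃ (c' C C2 a b p0 p2 φ τ : ℝ) (n : ℕ) (δ : ℝ), 0 < δ ∧ 0 < c' ∧ 0 < C ∧ 2 * C ≤ C2 ∧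
      0 < a ∧ a < θ ∧ 0 < b ∧ b < a ∧ 0 < p0 ∧ p0 ≤ 1 / 2 ∧ 0 < p2 ∧ p2 ≤ 1 / 2 ∧ 0 < φ ∧ 0 < τ ∧
      c1 * c' ^ 2 ≤ θ / 8 ∧ H * Λ ≤ θ / 8 * C ^ 2 ∧ 2 * H * p0 * g C ≤ θ / 4 * a ∧
      c1 * Λ / θ < 4 ^ n ∧
      ∀ ACT MA MB SE BE CL J L : ℝ, c0 ≤ ACT → MA ≤ mis θ a → MB ≤ mis a b → SE ≤ D1 →
        BE ≤ δ → CL ≤ clo τ → 0 ≤ J → 0 ≤ L →
        c' ^ 2 * θ / 2 * ACT ≤
          H * (c' ^ 2 * (MA + 4 * c1 / (3 * a) * BE) +
            8 * (n * (J / p0 + L / φ)) +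
            8 * Λ * ((2 * p2 + φ / τ) * g C2 / (p0 * b) * ACT +
              1 / p0 * (MB + 16 / (3 * C2 ^ 2) * SE +
                4 * c1 / (3 * b) * BE + 4 / (3 * c' ^ 2) * CL))) →
        δ ≤ J + L := by
  -- `c'`
  obtain ⟨c', hc', k1⟩ : ∃ c' : ℝ, 0 < c' ∧ c1 * c' ^ 2 ≤ θ / 8 := by
    refine ⟨Real.sqrt (θ / (8 * (c1 + 1))), Real.sqrt_pos.2 (by positivity), ?_⟩
    rw [Real.sq_sqrt (by positivity), ← mul_div_assoc, div_le_div_iff₀ (by positivity) (by norm_num)]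
    nlinarith
  -- `C`
  obtain ⟨C, hC, k2⟩ : ∃ C : ℝ, 0 < C ∧ H * Λ ≤ θ / 8 * C ^ 2 := by
    refine ⟨Real.sqrt (8 * (H * Λ) / θ), Real.sqrt_pos.2 (by positivity), ?_⟩
    rw [Real.sq_sqrt (by positivity)]
    refine le_of_eq ?_
    field_simp
  obtain ⟨K, hK⟩ : ∃ K : ℝ, K = c' ^ 2 * θ := ⟨_, rfl⟩
  have hKp : 0 < K := by rw [hK]; positivity
  have hq : 0 < K * c0 := by positivity
  -- `a`
  obtain ⟨a, ha, haθ, hma⟩ := hm θ hθ (K * c0 / 16 / (H * c' ^ 2)) (by positivity)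
  -- `p0`
  obtain ⟨p0, hp0, hp0', k3⟩ := order_small (X := H * g C) (Z := θ / 4 * a)
    (mul_pos hH (hg C)) (by positivity)
  -- `C2`
  obtain ⟨C2, hC2, hC2p, k5⟩ := order_large (X := H * (8 * Λ * (1 / p0 * (16 / 3 * D1))))
    (Z := K * c0 / 16) (C := C) (by positivity) (by positivity) hC
  -- `b`
  obtain ⟨b, hb, hba, hmb⟩ := hm a ha (K * c0 / 16 / (H * (8 * Λ * (1 / p0)))) (by positivity)
  -- `τ`
  obtain ⟨τ, hτ, hτc⟩ := hclo (K * c0 / 16 / (H * (8 * Λ * (1 / p0 * (4 / (3 * c' ^ 2))))))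
    (by positivity)
  -- `p2`, `φ`
  have hg2 := hg C2
  have hYp : 0 < H * (8 * Λ * (g C2 / (p0 * b))) := by positivity
  obtain ⟨p2, hp2, hp2', k6⟩ := order_small (X := H * (8 * Λ * (g C2 / (p0 * b))))
    (Z := K / 16) hYp (by positivity)
  obtain ⟨φ, hφ, hφ', k7⟩ := order_small (X := H * (8 * Λ * (g C2 / (p0 * b))) / τ)
    (Z := K / 16) (by positivity) (by positivity)
  -- `n`
  obtain ⟨n, hn, k4⟩ : ∃ n : ℕ, 0 < n ∧ c1 * Λ / θ < 4 ^ n := by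
    obtain ⟨m, hm⟩ := pow_unbounded_of_one_lt (c1 * Λ / θ) (by norm_num : (1 : ℝ) < 4)
    refine ⟨m + 1, Nat.succ_pos m, hm.trans_le ?_⟩
    exact pow_le_pow_right₀ (by norm_num) (Nat.le_succ m)
  have hn' : (0 : ℝ) < n := by exact_mod_cast hn
  -- `δ`
  obtain ⟨U, hU⟩ : ∃ U : ℝ, U = H * (c' ^ 2 * (4 * c1 / (3 * a))) +
    H * (8 * Λ * (1 / p0 * (4 * c1 / (3 * b)))) := ⟨_, rfl⟩
  have hUp : 0 ≤ U := by rw [hU]; positivity
  have hδp : 0 < min (K * c0 / 64 / (U + 1)) (min p0 φ * (K * c0 / 64 / (8 * H * n))) := by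
    have hmin : 0 < min p0 φ := lt_min hp0 hφ
    exact lt_min (by positivity) (by positivity)
  refine ⟨c', C, C2, a, b, p0, p2, φ, τ, n, _, hδp, hc', hC, hC2, ha, haθ, hb,
    hba, hp0, hp0', hp2, hp2', hφ, hτ, k1, k2, by linarith, k4, ?_⟩
  intro ACT MA MB SE BE CL J L hACT hMA hMB hSE hBE hCL hJ hL hineq
  rw [order_ring, ← hU, ← hK] at hineq
  have hACTp : 0 ≤ ACT := hc0.le.trans hACT
  refine order_fin hH hq hp0 hφ hn' hUp ?_ ?_ ?_ ?_ ?_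
    (mul_le_mul_of_nonneg_left hACT hKp.le) hJ hL hBE hineq
  · have h1 := order_mul (by positivity) hMA hma
    linarith
  · have h1 := order_mul (by positivity) hMB hmb
    linarith
  · refine le_trans ?_ k5
    have h2 := mul_le_mul_of_nonneg_left hSE
      (show 0 ≤ H * (8 * Λ * (1 / p0 * (16 / (3 * C2 ^ 2)))) by positivity)
    refine le_trans (le_of_eq (by ring)) (h2.trans (le_of_eq ?_))
    field_simp
  · have h1 := order_mul (by positivity) hCL hτc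
    linarith
  · refine mul_le_mul_of_nonneg_right ?_ hACTp
    have h3 : φ / τ * (H * (8 * Λ * (g C2 / (p0 * b)))) =
        φ * (H * (8 * Λ * (g C2 / (p0 * b))) / τ) := by ring
    have h4 : 0 ≤ φ * (H * (8 * Λ * (g C2 / (p0 * b))) / τ) := by positivity
    rw [h3]
    linarith

end P365L.T2.H904
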