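import Vale.Agent.P365.T2.StaticDet963

/-!
# P365 T2, static half: bounds of the outflux `O` of the strong set (292, note 19925 (4))

Fixed row `z`, `A0` = partners `w` of `z` with `kp w z ≥ p0`, `A1 ⊇ A0` contains all `y` with
`lamS z y > p'`.  `O = Σ_{w ∈ A0, y ∉ A1} e_w e_y K_wy`.
-/

set_option autoImplicit false
set_option linter.all false

namespace P365L.T2.H904

open Matrix Complex P365L P365L.Stat P365L.T2
open scoped ComplexConjugate

variable {ι : Type*} [Fintype ι] [DecidableEq ι]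
variable {A : Matrix ι ι ℝ} {W : ι → ℂ}

/-- two-step strong weight -/
noncomputable def lamS (A : Matrix ι ι ℝ) (W : ι → ℂ) (p0 p2 : ℝ) (z y : ι) : ℝ :=
  ∑ w, if p0 ≤ kp A W w z ∧ p2 ≤ kp A W w y then
    ew W w * mm A W w * (kp A W w z * kp A W w y) else 0

theorem kp_nn (hA : A.IsSymm) (hW : ∀ x, (W x).im < 0) (x y : ι) : 0 ≤ kp A W x y := by
  have h1 := mul_pos (mm_pos hA hW x) (mm_pos hA hW y)
  have h2 := KK_nonneg (A := A) (W := W) x y
  unfold kp
  positivity

/-- `K (1 - κ) = κ m m` -/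
theorem KK_kp (hA : A.IsSymm) (hW : ∀ x, (W x).im < 0) (x y : ι) :
    KK A W x y * (1 - kp A W x y) = kp A W x y * (mm A W x * mm A W y) := by
  have h1 := mul_pos (mm_pos hA hW x) (mm_pos hA hW y)
  have h2 := KK_nonneg (A := A) (W := W) x y
  unfold kp
  field_simp
  ring

theorem KK_le_of_kp (hA : A.IsSymm) (hW : ∀ x, (W x).im < 0) {κ1 : ℝ} (hκ : κ1 < 1) {x y : ι}
    (h : kp A W x y ≤ κ1) :
    KK A W x y ≤ (1 / (1 - κ1)) * (kp A W x y * (mm A W x * mm A W y)) := by
  have h1 := KK_kp hA hW x y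
  have h2 := KK_nonneg (A := A) (W := W) x y
  have h3 : 0 < 1 - κ1 := by linarith
  rw [one_div, inv_mul_eq_div, le_div_iff₀ h3, ← h1]
  exact mul_le_mul_of_nonneg_left (by linarith) h2

/-- the mass of a strong partner is at most `1/p0` times the hopping probability -/
theorem mass_le_P (hA : A.IsSymm) (hW : ∀ x, (W x).im < 0) {p0 : ℝ} (hp : 0 < p0) {w z : ι}
    (h : p0 ≤ kp A W w z) :
    ew W w * mm A W w ≤ (1 / p0) * (ew W w * KK A W w z / mm A W z) := by
  have hz := mm_pos hA hW z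
  have h2 := mm_mul_le_of_kp hA hW hp h
  have h3 := ew_pos hW w
  rw [one_div, inv_mul_eq_div, div_div, le_div_iff₀ (by positivity)]
  calc ew W w * mm A W w * (mm A W z * p0) = ew W w * (p0 * (mm A W w * mm A W z)) := by ring
    _ ≤ ew W w * KK A W w z := mul_le_mul_of_nonneg_left h2 h3.le

/-- **(i)** outflux into a set `Z` (quiet or far sites) -/
theorem out_quiet (hA : A.IsSymm) (hW : ∀ x, (W x).im < 0) {p0 : ℝ} (hp : 0 < p0) {z : ι}
    (A0 Z : Finset ι) (h0 : ∀ w ∈ A0, p0 ≤ kp A W w z) :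
    ∑ w ∈ A0, ∑ y ∈ Z, ew W w * ew W y * KK A W w y ≤
      (1 / p0) * ∑ w ∈ A0, (ew W w * KK A W w z / mm A W z) *
        ∑ y ∈ Z, ew W y * KK A W w y / mm A W w := by
  rw [Finset.mul_sum]
  refine Finset.sum_le_sum fun w hw => ?_
  have h1 := mass_le_P hA hW hp (h0 w hw)
  have hm := mm_pos hA hW w
  have h2 : ∑ y ∈ Z, ew W w * ew W y * KK A W w y =
      ew W w * mm A W w * ∑ y ∈ Z, ew W y * KK A W w y / mm A W w := by
    rw [Finset.mul_sum]
    refine Finset.sum_congr rfl fun y _ => ?_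
    field_simp
  have h3 : 0 ≤ ∑ y ∈ Z, ew W y * KK A W w y / mm A W w :=
    Finset.sum_nonneg fun y _ => div_nonneg (mul_nonneg (ew_pos hW y).le (KK_nonneg _ _)) hm.le
  rw [h2]
  calc _ ≤ ((1 / p0) * (ew W w * KK A W w z / mm A W z)) *
        ∑ y ∈ Z, ew W y * KK A W w y / mm A W w := mul_le_mul_of_nonneg_right h1 h3
    _ = _ := by ring

/-- **(ii)** weak pairs into a set of mass `≤ g` -/
theorem out_weak (hA : A.IsSymm) (hW : ∀ x, (W x).im < 0) {p0 p2 g : ℝ} (hp : 0 < p0)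
    (hp2 : 0 < p2) (hp2' : p2 ≤ 1 / 2) {z : ι} (A0 Y : Finset ι)
    (h0 : ∀ w ∈ A0, p0 ≤ kp A W w z) (hY : ∑ y ∈ Y, ew W y * mm A W y ≤ g) :
    ∑ w ∈ A0, ∑ y ∈ Y with kp A W w y < p2, ew W w * ew W y * KK A W w y ≤ 2 * p2 * g / p0 := by
  have hg : 0 ≤ ∑ y ∈ Y, ew W y * mm A W y :=
    Finset.sum_nonneg fun y _ => (mul_pos (ew_pos hW y) (mm_pos hA hW y)).le
  have h1 : ∀ w ∈ A0, ∑ y ∈ Y with kp A W w y < p2, ew W w * ew W y * KK A W w y ≤
      (ew W w * mm A W w) * (2 * p2 * g) := by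
    intro w hw
    have hw1 := ew_pos hW w
    have hw2 := mm_pos hA hW w
    have h2 : ∀ y ∈ Y.filter (fun y => kp A W w y < p2), ew W w * ew W y * KK A W w y ≤
        (ew W w * mm A W w) * (2 * p2) * (ew W y * mm A W y) := by
      intro y hy
      have hy' := (Finset.mem_filter.1 hy).2
      have hy1 := ew_pos hW y
      have hy2 := mm_pos hA hW y
      have h3 := KK_le_of_kp hA hW (κ1 := 1 / 2) (by norm_num) (x := w) (y := y) (by linarith)
      have h4 : KK A W w y ≤ 2 * p2 * (mm A W w * mm A W y) := by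
        refine h3.trans ?_
        have : kp A W w y * (mm A W w * mm A W y) ≤ p2 * (mm A W w * mm A W y) :=
          mul_le_mul_of_nonneg_right hy'.le (by positivity)
        nlinarith
      calc ew W w * ew W y * KK A W w y ≤ ew W w * ew W y * (2 * p2 * (mm A W w * mm A W y)) :=
            mul_le_mul_of_nonneg_left h4 (by positivity)
        _ = _ := by ring
    calc _ ≤ ∑ y ∈ Y with kp A W w y < p2, (ew W w * mm A W w) * (2 * p2) * (ew W y * mm A W y) :=
          Finset.sum_le_sum h2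
      _ ≤ ∑ y ∈ Y, (ew W w * mm A W w) * (2 * p2) * (ew W y * mm A W y) :=
          Finset.sum_le_sum_of_subset_of_nonneg (Finset.filter_subset _ _) fun y _ _ => by
            have hy1 := ew_pos hW y
            have hy2 := mm_pos hA hW y
            positivity
      _ = (ew W w * mm A W w) * (2 * p2) * ∑ y ∈ Y, ew W y * mm A W y := by
          rw [Finset.mul_sum]
      _ ≤ (ew W w * mm A W w) * (2 * p2) * g := mul_le_mul_of_nonneg_left hY (by positivity)
      _ = _ := by ring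
  have h5 := sum_strong_le hA hW hp z A0 h0
  have h6 : 0 ≤ 2 * p2 * g := by
    have : 0 ≤ g := hg.trans hY
    positivity
  calc _ ≤ ∑ w ∈ A0, (ew W w * mm A W w) * (2 * p2 * g) := Finset.sum_le_sum h1
    _ = (∑ w ∈ A0, ew W w * mm A W w) * (2 * p2 * g) := by rw [Finset.sum_mul]
    _ ≤ (1 / p0) * (2 * p2 * g) := mul_le_mul_of_nonneg_right h5 h6
    _ = _ := by ring

/-- **(iii)** intermediate pairs into sites of small two-step weight -/
theorem out_mid (hA : A.IsSymm) (hW : ∀ x, (W x).im < 0) {p0 p2 p1 κ1 g : ℝ} (hp : 0 < p0)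
    (hκ : κ1 < 1) (hp1 : 0 ≤ p1) {z : ι} (A0 Y : Finset ι)
    (h0 : ∀ w ∈ A0, p0 ≤ kp A W w z) (hY : ∑ y ∈ Y, ew W y * mm A W y ≤ g)
    (hl : ∀ y ∈ Y, lamS A W p0 p2 z y ≤ p1) :
    ∑ w ∈ A0, ∑ y ∈ Y with (p2 ≤ kp A W w y ∧ kp A W w y ≤ κ1), ew W w * ew W y * KK A W w y ≤
      p1 * g / ((1 - κ1) * p0) := by
  have hκ' : 0 < 1 - κ1 := by linarith
  simp only [Finset.sum_filter]
  rw [Finset.sum_comm]
  have h1 : ∀ y ∈ Y, ∑ w ∈ A0, (if p2 ≤ kp A W w y ∧ kp A W w y ≤ κ1 then
      ew W w * ew W y * KK A W w y else 0) ≤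
      (1 / ((1 - κ1) * p0) * p1) * (ew W y * mm A W y) := by
    intro y hy
    have hy1 := ew_pos hW y
    have hy2 := mm_pos hA hW y
    have h2 : ∀ w ∈ A0, (if p2 ≤ kp A W w y ∧ kp A W w y ≤ κ1 then
        ew W w * ew W y * KK A W w y else 0) ≤
        (1 / ((1 - κ1) * p0)) * (ew W y * mm A W y) *
          (if p0 ≤ kp A W w z ∧ p2 ≤ kp A W w y then
            ew W w * mm A W w * (kp A W w z * kp A W w y) else 0) := by
      intro w hw
      have hw1 := ew_pos hW w
      have hw2 := mm_pos hA hW w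
      have hk1 := kp_nn hA hW w z
      have hk2 := kp_nn hA hW w y
      by_cases hc : p2 ≤ kp A W w y ∧ kp A W w y ≤ κ1
      · rw [if_pos hc, if_pos ⟨h0 w hw, hc.1⟩]
        have h3 := KK_le_of_kp hA hW hκ hc.2
        have h4 : 1 ≤ (1 / p0) * kp A W w z := by
          rw [one_div, inv_mul_eq_div, le_div_iff₀ hp, one_mul]
          exact h0 w hw
        have h5 : 0 ≤ (1 / (1 - κ1)) * (kp A W w y * (mm A W w * mm A W y)) := by positivity
        calc ew W w * ew W y * KK A W w y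
            ≤ ew W w * ew W y * ((1 / (1 - κ1)) * (kp A W w y * (mm A W w * mm A W y))) :=
              mul_le_mul_of_nonneg_left h3 (by positivity)
          _ ≤ ew W w * ew W y * ((1 / (1 - κ1)) * (kp A W w y * (mm A W w * mm A W y))) *
                ((1 / p0) * kp A W w z) := by
              refine le_mul_of_one_le_right (by positivity) h4
          _ = _ := by
              field_simp
      · rw [if_neg hc]
        split_ifs <;> positivity
    calc _ ≤ ∑ w ∈ A0, (1 / ((1 - κ1) * p0)) * (ew W y * mm A W y) *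
          (if p0 ≤ kp A W w z ∧ p2 ≤ kp A W w y then
            ew W w * mm A W w * (kp A W w z * kp A W w y) else 0) := Finset.sum_le_sum h2
      _ = (1 / ((1 - κ1) * p0)) * (ew W y * mm A W y) * ∑ w ∈ A0,
          (if p0 ≤ kp A W w z ∧ p2 ≤ kp A W w y then
            ew W w * mm A W w * (kp A W w z * kp A W w y) else 0) := by rw [Finset.mul_sum]
      _ ≤ (1 / ((1 - κ1) * p0)) * (ew W y * mm A W y) * lamS A W p0 p2 z y := by
          refine mul_le_mul_of_nonneg_left ?_ (by positivity)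
          unfold lamS
          refine Finset.sum_le_sum_of_subset_of_nonneg (Finset.subset_univ _) fun w _ _ => ?_
          have hw1 := ew_pos hW w
          have hw2 := mm_pos hA hW w
          have hk1 := kp_nn hA hW w z
          have hk2 := kp_nn hA hW w y
          split_ifs <;> positivity
      _ ≤ (1 / ((1 - κ1) * p0)) * (ew W y * mm A W y) * p1 :=
          mul_le_mul_of_nonneg_left (hl y hy) (by positivity)
      _ = _ := by ring
  calc _ ≤ ∑ y ∈ Y, (1 / ((1 - κ1) * p0) * p1) * (ew W y * mm A W y) := Finset.sum_le_sum h1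
    _ = (1 / ((1 - κ1) * p0) * p1) * ∑ y ∈ Y, ew W y * mm A W y := by rw [Finset.mul_sum]
    _ ≤ (1 / ((1 - κ1) * p0) * p1) * g := mul_le_mul_of_nonneg_left hY (by positivity)
    _ = _ := by
        field_simp

theorem sum_union_le {f : ι → ℝ} (hf : ∀ y, 0 ≤ f y) (Z Y : Finset ι) :
    ∑ y ∈ Z ∪ Y, f y ≤ ∑ y ∈ Z, f y + ∑ y ∈ Y, f y := by
  rw [← Finset.sum_union_inter]
  have := Finset.sum_nonneg fun y (_ : y ∈ Z ∩ Y) => hf y
  linarith

/-- **the whole outflux**: every `y ∉ A1` is in `Z` (quiet or far) or in `Y` (mass `≤ g`), and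
has small two-step weight; what is left are the nearly locked pairs `kp > κ1`. -/
theorem out_total (hA : A.IsSymm) (hW : ∀ x, (W x).im < 0) {p0 p2 p1 κ1 g : ℝ} (hp : 0 < p0)
    (hp2 : 0 < p2) (hp2' : p2 ≤ 1 / 2) (hκ : κ1 < 1) (hp1 : 0 ≤ p1) {z : ι}
    (A0 A1 Y Z : Finset ι) (h0 : ∀ w ∈ A0, p0 ≤ kp A W w z)
    (hY : ∑ y ∈ Y, ew W y * mm A W y ≤ g) (hl : ∀ y, y ∉ A1 → lamS A W p0 p2 z y ≤ p1)
    (hc : ∀ y, y ∉ A1 → y ∈ Z ∨ y ∈ Y) :
    ∑ w ∈ A0, ∑ y ∈ A1ᶜ, ew W w * ew W y * KK A W w y ≤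
      (1 / p0) * ∑ w ∈ A0, (ew W w * KK A W w z / mm A W z) *
        (∑ y ∈ Z, ew W y * KK A W w y / mm A W w) +
      2 * p2 * g / p0 + p1 * g / ((1 - κ1) * p0) +
      ∑ w ∈ A0, ∑ y ∈ Y \ A1 with κ1 < kp A W w y, ew W w * ew W y * KK A W w y := by
  have hT : ∀ w y, 0 ≤ ew W w * ew W y * KK A W w y := fun w y =>
    mul_nonneg (mul_pos (ew_pos hW w) (ew_pos hW y)).le (KK_nonneg _ _)
  have hY' : ∑ y ∈ Y \ A1, ew W y * mm A W y ≤ g :=
    (Finset.sum_le_sum_of_subset_of_nonneg Finset.sdiff_subset fun y _ _ =>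
      (mul_pos (ew_pos hW y) (mm_pos hA hW y)).le).trans hY
  have h1 := out_quiet hA hW hp A0 Z h0
  have h2 := out_weak hA hW hp hp2 hp2' A0 (Y \ A1) h0 hY'
  have h3 := out_mid hA hW (p2 := p2) hp hκ hp1 A0 (Y \ A1) h0 hY' fun y hy =>
    hl y (Finset.mem_sdiff.1 hy).2
  refine le_trans ?_ (add_le_add (add_le_add (add_le_add h1 h2) h3) le_rfl)
  rw [← Finset.sum_add_distrib, ← Finset.sum_add_distrib, ← Finset.sum_add_distrib]
  refine Finset.sum_le_sum fun w _ => ?_
  have h4 : ∑ y ∈ A1ᶜ, ew W w * ew W y * KK A W w y ≤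
      ∑ y ∈ Z, ew W w * ew W y * KK A W w y + ∑ y ∈ Y \ A1, ew W w * ew W y * KK A W w y := by
    calc _ ≤ ∑ y ∈ Z ∪ (Y \ A1), ew W w * ew W y * KK A W w y := by
          refine Finset.sum_le_sum_of_subset_of_nonneg ?_ fun y _ _ => hT w y
          intro y hy
          have hy' : y ∉ A1 := by simpa using hy
          rcases hc y hy' with h | h
          · exact Finset.mem_union_left _ h
          · exact Finset.mem_union_right _ (Finset.mem_sdiff.2 ⟨h, hy'⟩)
      _ ≤ _ := sum_union_le (hT w) Z (Y \ A1)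
  refine h4.trans ?_
  rw [add_assoc, add_assoc]
  refine add_le_add le_rfl ?_
  simp only [Finset.sum_filter]
  rw [← Finset.sum_add_distrib, ← Finset.sum_add_distrib]
  refine Finset.sum_le_sum fun y _ => ?_
  have h5 := hT w y
  rcases lt_or_ge (kp A W w y) p2 with h | h
  · rw [if_pos h]
    have : 0 ≤ (if p2 ≤ kp A W w y ∧ kp A W w y ≤ κ1 then ew W w * ew W y * KK A W w y else 0) +
        (if κ1 < kp A W w y then ew W w * ew W y * KK A W w y else 0) :=
      add_nonneg (by split_ifs <;> first | exact h5 | exact le_rfl)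
        (by split_ifs <;> first | exact h5 | exact le_rfl)
    linarith
  · rcases lt_or_ge κ1 (kp A W w y) with h' | h'
    · rw [if_pos h']
      have : 0 ≤ (if kp A W w y < p2 then ew W w * ew W y * KK A W w y else 0) +
          (if p2 ≤ kp A W w y ∧ kp A W w y ≤ κ1 then ew W w * ew W y * KK A W w y else 0) :=
        add_nonneg (by split_ifs <;> first | exact h5 | exact le_rfl)
          (by split_ifs <;> first | exact h5 | exact le_rfl)
      linarith
    · rw [if_pos (show p2 ≤ kp A W w y ∧ kp A W w y ≤ κ1 from ⟨h, h'⟩)]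
      have : 0 ≤ (if kp A W w y < p2 then ew W w * ew W y * KK A W w y else 0) +
          (if κ1 < kp A W w y then ew W w * ew W y * KK A W w y else 0) :=
        add_nonneg (by split_ifs <;> first | exact h5 | exact le_rfl)
          (by split_ifs <;> first | exact h5 | exact le_rfl)
      linarith

end P365L.T2.H904
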